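import Vale.Agent.P247.H647.Pau

/-!
# P247, Stage 2, S2: the pointwise algebra
-/

noncomputable section

namespace Vale.Agent.P247.H332.AlgS

open Vale.Agent.P247.H74 Vale.Agent.P247.H574 Vale.Agent.P247.H647

/-! ## The Lichnerowicz identity of the symbol -/

lemma two_im (z w : ℂ) : ((2 * ((starRingEnd ℂ) z * w).im : ℝ) : ℂ) =
    -Complex.I * ((starRingEnd ℂ) z * w - z * (starRingEnd ℂ) w) := by
  apply Complex.ext
  · simp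
    ring
  · simp

lemma norm_sq_c (z : ℂ) : ((‖z‖ ^ 2 : ℝ) : ℂ) = (starRingEnd ℂ) z * z := by
  rw [← Complex.normSq_eq_norm_sq, Complex.normSq_eq_conj_mul_self]

theorem lich (ζ : Fin 4 → ℂ) (f g : Sp) : ∑ k, (hat (jz ζ) k : ℂ) * inner ℂ f (pau k g) =
    (∑ a, ‖ζ a‖ ^ 2 : ℝ) * inner ℂ f g - inner ℂ (symb ζ f) (symb ζ g) := by
  have hI : Complex.I ^ 2 = -1 := Complex.I_sq
  have e0 : hat (jz ζ) 0 = 2 * ((starRingEnd ℂ) (ζ 0) * ζ 1).im +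
    2 * ((starRingEnd ℂ) (ζ 2) * ζ 3).im := rfl
  have e1 : hat (jz ζ) 1 = 2 * ((starRingEnd ℂ) (ζ 0) * ζ 2).im +
    2 * ((starRingEnd ℂ) (ζ 3) * ζ 1).im := rfl
  have e2 : hat (jz ζ) 2 = 2 * ((starRingEnd ℂ) (ζ 0) * ζ 3).im +
    2 * ((starRingEnd ℂ) (ζ 1) * ζ 2).im := rfl
  rw [Fin.sum_univ_three, Fin.sum_univ_four, e0, e1, e2]
  simp only [Complex.ofReal_add, two_im, norm_sq_c, inner_sp, pau0_apply, pau1_apply, pau2_apply,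
    symb_apply, Fin.sum_univ_four, PiLp.add_apply, PiLp.smul_apply, smul_eq_mul, sig_fin]
  simp only [Matrix.cons_val_zero, Matrix.cons_val_one, Matrix.cons_val, map_add, map_mul,
    map_neg, Complex.conj_I]
  generalize (starRingEnd ℂ) (ζ 0) = z0
  generalize (starRingEnd ℂ) (ζ 1) = z1
  generalize (starRingEnd ℂ) (ζ 2) = z2
  generalize (starRingEnd ℂ) (ζ 3) = z3
  generalize (starRingEnd ℂ) (f 0) = f0
  generalize (starRingEnd ℂ) (f 1) = f1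
  generalize ζ 0 = w0
  generalize ζ 1 = w1
  generalize ζ 2 = w2
  generalize ζ 3 = w3
  generalize g 0 = g0
  generalize g 1 = g1
  ring_nf
  simp only [hI]
  ring

/-! ## The positive cone -/

/-- the quadratic form of an array in the direction `n` -/
def qf (n : Fin 3 → ℝ) (φ : Fin 4 → Fin 4 → ℝ) (u0 u1 u2 u3 : ℝ) : ℝ :=
  φ 0 1 * (n 0 * (u0 ^ 2 + u1 ^ 2) + n 1 * (u0 * u3 + u1 * u2) + n 2 * (u1 * u3 - u0 * u2)) +
  φ 2 3 * (n 0 * (u2 ^ 2 + u3 ^ 2) - n 1 * (u0 * u3 + u1 * u2) + n 2 * (u0 * u2 - u1 * u3)) +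
  φ 0 2 * (n 0 * (u1 * u2 - u0 * u3) + n 1 * (u0 ^ 2 + u2 ^ 2) + n 2 * (u0 * u1 + u2 * u3)) +
  φ 1 3 * (n 0 * (u1 * u2 - u0 * u3) - n 1 * (u1 ^ 2 + u3 ^ 2) + n 2 * (u0 * u1 + u2 * u3)) +
  φ 0 3 * (n 0 * (u0 * u2 + u1 * u3) + n 1 * (u2 * u3 - u0 * u1) + n 2 * (u0 ^ 2 + u3 ^ 2)) +
  φ 1 2 * (-n 0 * (u0 * u2 + u1 * u3) + n 1 * (u0 * u1 - u2 * u3) + n 2 * (u1 ^ 2 + u2 ^ 2))

lemma posA_sum {n : Fin 3 → ℝ} {φ : Fin 4 → Fin 4 → ℝ} (hφ : ∀ a c, φ a c = - φ c a)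
    (u : Fin 4 → ℝ) :
    ∑ a, ∑ c, ∑ d, ∑ k, φ a d * u a * u c * (n k * omM k c d) =
      qf n φ (u 0) (u 1) (u 2) (u 3) := by
  have d0 : φ 0 0 = 0 := by linarith [hφ 0 0]
  have d1 : φ 1 1 = 0 := by linarith [hφ 1 1]
  have d2 : φ 2 2 = 0 := by linarith [hφ 2 2]
  have d3 : φ 3 3 = 0 := by linarith [hφ 3 3]
  simp only [Fin.sum_univ_four, Fin.sum_univ_three, d0, d1, d2, d3, hφ 1 0, hφ 2 0, hφ 3 0,
    hφ 2 1, hφ 3 1, hφ 3 2, omM]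
  simp
  rw [qf]
  ring

lemma qf_nonneg {n : Fin 3 → ℝ} {φ : Fin 4 → Fin 4 → ℝ} (hφ : ∀ a c, φ a c = - φ c a)
    (hP : PosA n φ) (u0 u1 u2 u3 : ℝ) : 0 ≤ qf n φ u0 u1 u2 u3 := by
  have h := hP ![u0, u1, u2, u3]
  rwa [posA_sum hφ] at h

lemma sum_sq_one {n : Fin 3 → ℝ} (hn : len n = 1) : n 0 ^ 2 + n 1 ^ 2 + n 2 ^ 2 = 1 := by
  have h := len_sq n
  rw [hn, Fin.sum_univ_three] at h
  linarith

lemma core {n : Fin 3 → ℝ} {φ : Fin 4 → Fin 4 → ℝ} (hn : n 0 ^ 2 + n 1 ^ 2 + n 2 ^ 2 = 1)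
    (A B C t : ℝ) :
    2 * t * (A * φ 2 3 - B * φ 1 3 + C * φ 1 2 + (2 * t * n 2 - C) * φ 0 3 -
        (B - 2 * t * n 1) * φ 0 2 + (2 * t * n 0 - A) * φ 0 1) -
      (1 / 2) * (n 0 * (φ 0 1 + φ 2 3) + n 1 * (φ 0 2 - φ 1 3) + n 2 * (φ 0 3 + φ 1 2)) *
        (2 * (A * (2 * t * n 0 - A) - B * (B - 2 * t * n 1) + C * (2 * t * n 2 - C))) =
    (1 / 2) * (
      qf n φ (2 * t - (A * n 0 + B * n 1 + C * n 2))
        (-((2 * t * n 2 - C) * n 1 + (B - 2 * t * n 1) * n 2))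
        (-(-(2 * t * n 2 - C) * n 0 + (2 * t * n 0 - A) * n 2))
        (-(-(B - 2 * t * n 1) * n 0 - (2 * t * n 0 - A) * n 1)) +
      qf n φ (-(B * n 2 - C * n 1))
        (2 * t - (A * n 0 + (2 * t * n 2 - C) * n 2 - (B - 2 * t * n 1) * n 1))
        (-(B * n 0 - (2 * t * n 0 - A) * n 1))
        (-(C * n 0 - (2 * t * n 0 - A) * n 2)) +
      qf n φ (-(-A * n 2 + C * n 0))
        (-(A * n 1 + (B - 2 * t * n 1) * n 0))
        (2 * t - (B * n 1 + (2 * t * n 2 - C) * n 2 + (2 * t * n 0 - A) * n 0))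
        (-(C * n 1 + (B - 2 * t * n 1) * n 2)) +
      qf n φ (-(A * n 1 - B * n 0))
        (-(A * n 2 - (2 * t * n 2 - C) * n 0))
        (-(B * n 2 - (2 * t * n 2 - C) * n 1))
        (2 * t - (C * n 2 - (B - 2 * t * n 1) * n 1 + (2 * t * n 0 - A) * n 0))) := by
  simp only [qf]
  linear_combination (2 * t ^ 2 * ((1 / 2) * (n 0 * (φ 0 1 + φ 2 3) + n 1 * (φ 0 2 - φ 1 3) + n 2 * (φ 0 3 + φ 1 2))) * (2 - (n 0 ^ 2 + n 1 ^ 2 + n 2 ^ 2)) -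
    2 * ((1 / 2) * (n 0 * (φ 0 1 + φ 2 3) + n 1 * (φ 0 2 - φ 1 3) + n 2 * (φ 0 3 + φ 1 2))) *
      ((A - t * n 0) ^ 2 + (B - t * n 1) ^ 2 + (C - t * n 2) ^ 2) +
    4 * t * ((A - t * n 0) * ((φ 0 1 - φ 2 3) / 2) + (B - t * n 1) * ((φ 0 2 + φ 1 3) / 2) + (C - t * n 2) * ((φ 0 3 - φ 1 2) / 2)) *
      (1 - (n 0 ^ 2 + n 1 ^ 2 + n 2 ^ 2))) * hn

theorem cone {n : Fin 3 → ℝ} {F φ : Fin 4 → Fin 4 → ℝ} {t : ℝ} (hn : len n = 1)
    (hF : ∀ a c, F a c = - F c a) (hφ : ∀ a c, φ a c = - φ c a)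
    (hh : ∀ k, hat F k = 2 * t * n k) (hP : PosA n φ) :
    (1 / 2) * (∑ k, n k * hat φ k) * wdA F F ≤ 2 * t * wdA F φ := by
  have h0 : F 0 1 + F 2 3 = 2 * t * n 0 := hh 0
  have h1 : F 0 2 + F 3 1 = 2 * t * n 1 := hh 1
  have h2 : F 0 3 + F 1 2 = 2 * t * n 2 := hh 2
  rw [hF 3 1] at h1
  have g0 : F 2 3 = 2 * t * n 0 - F 0 1 := by linarith
  have g1 : F 1 3 = F 0 2 - 2 * t * n 1 := by linarith
  have g2 : F 1 2 = 2 * t * n 2 - F 0 3 := by linarith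
  have e0 : hat φ 0 = φ 0 1 + φ 2 3 := rfl
  have e1 : hat φ 1 = φ 0 2 - φ 1 3 := by
    have : hat φ 1 = φ 0 2 + φ 3 1 := rfl
    rw [this, hφ 3 1]; ring
  have e2 : hat φ 2 = φ 0 3 + φ 1 2 := rfl
  have key := core (φ := φ) (sum_sq_one hn) (F 0 1) (F 0 2) (F 0 3) t
  have q0 := qf_nonneg hφ hP (2 * t - (F 0 1 * n 0 + F 0 2 * n 1 + F 0 3 * n 2))
        (-((2 * t * n 2 - F 0 3) * n 1 + (F 0 2 - 2 * t * n 1) * n 2))
        (-(-(2 * t * n 2 - F 0 3) * n 0 + (2 * t * n 0 - F 0 1) * n 2))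
        (-(-(F 0 2 - 2 * t * n 1) * n 0 - (2 * t * n 0 - F 0 1) * n 1))
  have q1 := qf_nonneg hφ hP (-(F 0 2 * n 2 - F 0 3 * n 1))
        (2 * t - (F 0 1 * n 0 + (2 * t * n 2 - F 0 3) * n 2 - (F 0 2 - 2 * t * n 1) * n 1))
        (-(F 0 2 * n 0 - (2 * t * n 0 - F 0 1) * n 1))
        (-(F 0 3 * n 0 - (2 * t * n 0 - F 0 1) * n 2))
  have q2 := qf_nonneg hφ hP (-(-F 0 1 * n 2 + F 0 3 * n 0))
        (-(F 0 1 * n 1 + (F 0 2 - 2 * t * n 1) * n 0))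
        (2 * t - (F 0 2 * n 1 + (2 * t * n 2 - F 0 3) * n 2 + (2 * t * n 0 - F 0 1) * n 0))
        (-(F 0 3 * n 1 + (F 0 2 - 2 * t * n 1) * n 2))
  have q3 := qf_nonneg hφ hP (-(F 0 1 * n 1 - F 0 2 * n 0))
        (-(F 0 1 * n 2 - (2 * t * n 2 - F 0 3) * n 0))
        (-(F 0 2 * n 2 - (2 * t * n 2 - F 0 3) * n 1))
        (2 * t - (F 0 3 * n 2 - (F 0 2 - 2 * t * n 1) * n 1 + (2 * t * n 0 - F 0 1) * n 0))
  rw [Fin.sum_univ_three, e0, e1, e2]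
  simp only [wdA]
  rw [g0, g1, g2]
  linarith

/-! ## Jacobians -/

lemma jz_anti (ζ : Fin 4 → ℂ) (a c : Fin 4) : jz ζ a c = - jz ζ c a := by
  simp only [jz, Complex.mul_im, Complex.conj_re, Complex.conj_im]
  ring

/-- decomposable -/
lemma wdA_jz (ζ : Fin 4 → ℂ) : wdA (jz ζ) (jz ζ) = 0 := by
  simp only [wdA, jz, Complex.mul_im, Complex.conj_re, Complex.conj_im]
  ring

/-- the self-dual part of the Jacobian is close to the direction of a spinor almost killed by the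
symbol -/
lemma hat_jz' (ζ : Fin 4 → ℂ) (n : Fin 3 → ℝ) (f : Sp) (hf : ‖f‖ = 1)
    (hn : P3 n f = f) :
    len (fun k => hat (jz ζ) k - nz ζ ^ 2 * n k) ≤ 4 * nz ζ * ‖symb ζ f‖ := by
  set w : Fin 3 → ℝ := fun k => hat (jz ζ) k - nz ζ ^ 2 * n k with hw
  have h1 : ∀ g : Sp, inner ℂ g (P3 w f) = - inner ℂ (symb ζ g) (symb ζ f) := by
    intro g
    have h2 := lich ζ g f
    have h3 : P3 w f = P3 (hat (jz ζ)) f - ((nz ζ ^ 2 : ℝ) : ℂ) • f := by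
      have : w = hat (jz ζ) + (-(nz ζ ^ 2)) • n := by
        funext k; simp [hw]; ring
      rw [this, P3_add, P3_smul, hn]
      simp [sub_eq_add_neg]
    rw [h3, inner_sub_right, inner_smul_right, nz_sq, P3_apply]
    simp only [inner_sum, inner_smul_right]
    rw [h2]
    ring
  have h4 : ‖P3 w f‖ ^ 2 ≤ 4 * nz ζ * ‖P3 w f‖ * ‖symb ζ f‖ := by
    have h5 : (‖P3 w f‖ ^ 2 : ℝ) = ‖(inner ℂ (P3 w f) (P3 w f) : ℂ)‖ := by
      rw [inner_self_eq_norm_sq_to_K]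
      simp
    rw [h5, h1, norm_neg]
    exact (norm_inner_le_norm _ _).trans
      (mul_le_mul_of_nonneg_right (norm_symb_le _ _) (norm_nonneg _))
  rw [norm_P3, hf, mul_one] at h4
  rcases (len_nonneg w).eq_or_lt with h0 | h0
  · rw [← h0]
    have := nz_nonneg ζ
    positivity
  · have : len w * len w ≤ (4 * nz ζ * ‖symb ζ f‖) * len w := by nlinarith
    exact le_of_mul_le_mul_right this h0

lemma abs_le_len' (v : Fin 3 → ℝ) (k : Fin 3) : |v k| ≤ len v := by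
  apply Real.le_sqrt_of_sq_le
  rw [sq_abs]
  exact Finset.single_le_sum (f := fun a => v a ^ 2) (fun _ _ => sq_nonneg _) (Finset.mem_univ k)

lemma arith {Z S B X Y U : ℝ} {w n p : Fin 3 → ℝ} (hz : 0 < Z) (hS0 : 0 ≤ S) (hSZ : S ≤ 4 * Z)
    (hB0 : 0 ≤ B) (hw : ∀ k, |w k| ≤ 4 * Z * S) (hn : ∀ k, |n k| ≤ 1) (hp : ∀ k, |p k| ≤ 2 * B)
    (hww : w 0 ^ 2 + w 1 ^ 2 + w 2 ^ 2 ≤ (4 * Z * S) ^ 2)
    (hU : U = -(w 0 ^ 2 + w 1 ^ 2 + w 2 ^ 2) / 2 - Z ^ 2 * (w 0 * n 0 + w 1 * n 1 + w 2 * n 2))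
    (hX : X = Y - (w 0 * p 0 + w 1 * p 1 + w 2 * p 2) / 2)
    (hc : (1 / 2) * (n 0 * p 0 + n 1 * p 1 + n 2 * p 2) * U ≤ Z ^ 2 * X) :
    -(144 * B * S * Z) ≤ Y := by
  set W := 4 * Z * S with hW
  have hW0 : 0 ≤ W := by positivity
  have hWZ : W ≤ 16 * Z ^ 2 := by rw [hW]; nlinarith
  have hwn : |w 0 * n 0 + w 1 * n 1 + w 2 * n 2| ≤ 3 * W := by
    refine (abs_add_three _ _ _).trans ?_
    rw [abs_mul, abs_mul, abs_mul]
    have h0 := mul_le_mul (hw 0) (hn 0) (abs_nonneg _) hW0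
    have h1 := mul_le_mul (hw 1) (hn 1) (abs_nonneg _) hW0
    have h2 := mul_le_mul (hw 2) (hn 2) (abs_nonneg _) hW0
    linarith
  have hFFa : |U| ≤ 11 * Z ^ 2 * W := by
    rw [hU]
    have h1 := abs_le.1 hwn
    have h2 : W ^ 2 ≤ 16 * Z ^ 2 * W := by nlinarith
    have h3 := mul_le_mul_of_nonneg_left h1.1 (sq_nonneg Z)
    have h4 := mul_le_mul_of_nonneg_left h1.2 (sq_nonneg Z)
    have h5 : 0 ≤ w 0 ^ 2 + w 1 ^ 2 + w 2 ^ 2 := by positivity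
    rw [abs_le]
    constructor <;> linarith
  have hnp : |n 0 * p 0 + n 1 * p 1 + n 2 * p 2| ≤ 6 * B := by
    refine (abs_add_three _ _ _).trans ?_
    rw [abs_mul, abs_mul, abs_mul]
    have h0 := mul_le_mul (hn 0) (hp 0) (abs_nonneg _) zero_le_one
    have h1 := mul_le_mul (hn 1) (hp 1) (abs_nonneg _) zero_le_one
    have h2 := mul_le_mul (hn 2) (hp 2) (abs_nonneg _) zero_le_one
    linarith
  have h1 : -(33 * B * Z ^ 2 * W) ≤ Z ^ 2 * X := by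
    have h2 : |(1 / 2) * (n 0 * p 0 + n 1 * p 1 + n 2 * p 2) * U| ≤ 33 * B * Z ^ 2 * W := by
      rw [abs_mul, abs_mul, abs_of_pos (by norm_num : (0 : ℝ) < 1 / 2)]
      calc 1 / 2 * |n 0 * p 0 + n 1 * p 1 + n 2 * p 2| * |U| ≤
          1 / 2 * (6 * B) * (11 * Z ^ 2 * W) := by
            refine mul_le_mul ?_ hFFa (abs_nonneg _) (by positivity)
            linarith
        _ = _ := by ring
    have h3 := (abs_le.1 h2).1
    linarith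
  have h5 : -(33 * B * W) ≤ X := by
    have h6 : Z ^ 2 * (-(33 * B * W)) ≤ Z ^ 2 * X := by
      refine le_trans (le_of_eq ?_) h1
      ring
    exact le_of_mul_le_mul_left h6 (by positivity)
  have h7 : |w 0 * p 0 + w 1 * p 1 + w 2 * p 2| ≤ 6 * B * W := by
    refine (abs_add_three _ _ _).trans ?_
    rw [abs_mul, abs_mul, abs_mul]
    have h0 := mul_le_mul (hw 0) (hp 0) (abs_nonneg _) hW0
    have h1 := mul_le_mul (hw 1) (hp 1) (abs_nonneg _) hW0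
    have h2 := mul_le_mul (hw 2) (hp 2) (abs_nonneg _) hW0
    linarith
  have h8 := (abs_le.1 h7).1
  have h9 : 144 * B * S * Z = 36 * B * W := by rw [hW]; ring
  rw [h9]
  linarith

/-- the Jacobian with its self-dual part moved to the direction `n` -/
def mv (ζ : Fin 4 → ℂ) (w : Fin 3 → ℝ) : Fin 4 → Fin 4 → ℝ :=
  fun a c => jz ζ a c - (1 / 2) * ∑ k, w k * omM k a c

lemma omM_anti (k : Fin 3) (a c : Fin 4) : omM k a c = - omM k c a := by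
  fin_cases k <;> fin_cases a <;> fin_cases c <;> simp [omM]

lemma mv_anti (ζ : Fin 4 → ℂ) (w : Fin 3 → ℝ) (a c : Fin 4) : mv ζ w a c = - mv ζ w c a := by
  simp only [mv, Fin.sum_univ_three, omM_anti _ a c, jz_anti ζ a c]
  ring

lemma mv01 (ζ : Fin 4 → ℂ) (w : Fin 3 → ℝ) : mv ζ w 0 1 = jz ζ 0 1 - w 0 / 2 := by
  simp [mv, Fin.sum_univ_three, omM]; ring
lemma mv02 (ζ : Fin 4 → ℂ) (w : Fin 3 → ℝ) : mv ζ w 0 2 = jz ζ 0 2 - w 1 / 2 := by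
  simp [mv, Fin.sum_univ_three, omM]; ring
lemma mv03 (ζ : Fin 4 → ℂ) (w : Fin 3 → ℝ) : mv ζ w 0 3 = jz ζ 0 3 - w 2 / 2 := by
  simp [mv, Fin.sum_univ_three, omM]; ring
lemma mv12 (ζ : Fin 4 → ℂ) (w : Fin 3 → ℝ) : mv ζ w 1 2 = jz ζ 1 2 - w 2 / 2 := by
  simp [mv, Fin.sum_univ_three, omM]; ring
lemma mv13 (ζ : Fin 4 → ℂ) (w : Fin 3 → ℝ) : mv ζ w 1 3 = jz ζ 1 3 + w 1 / 2 := by
  simp [mv, Fin.sum_univ_three, omM]; ring
lemma mv31 (ζ : Fin 4 → ℂ) (w : Fin 3 → ℝ) : mv ζ w 3 1 = jz ζ 3 1 - w 1 / 2 := by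
  simp [mv, Fin.sum_univ_three, omM]; ring
lemma mv23 (ζ : Fin 4 → ℂ) (w : Fin 3 → ℝ) : mv ζ w 2 3 = jz ζ 2 3 - w 0 / 2 := by
  simp [mv, Fin.sum_univ_three, omM]; ring

lemma wdA_mv_self (ζ : Fin 4 → ℂ) (w n : Fin 3 → ℝ) (c : ℝ)
    (hw : ∀ k, w k = hat (jz ζ) k - c * n k) :
    wdA (mv ζ w) (mv ζ w) = -(w 0 ^ 2 + w 1 ^ 2 + w 2 ^ 2) / 2 -
      c * (w 0 * n 0 + w 1 * n 1 + w 2 * n 2) := by
  have k0 : w 0 = jz ζ 0 1 + jz ζ 2 3 - c * n 0 := hw 0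
  have k1 : w 1 = jz ζ 0 2 + jz ζ 3 1 - c * n 1 := hw 1
  have k2 : w 2 = jz ζ 0 3 + jz ζ 1 2 - c * n 2 := hw 2
  rw [jz_anti ζ 3 1] at k1
  have h1 := wdA_jz ζ
  simp only [wdA] at h1 ⊢
  rw [mv01, mv02, mv03, mv12, mv13, mv23]
  linear_combination h1 + w 0 * k0 + w 1 * k1 + w 2 * k2

lemma wdA_mv (ζ : Fin 4 → ℂ) (w : Fin 3 → ℝ) (φ : Fin 4 → Fin 4 → ℝ)
    (hφ : ∀ a c, φ a c = - φ c a) :
    wdA (mv ζ w) φ = wdA (jz ζ) φ - (w 0 * hat φ 0 + w 1 * hat φ 1 + w 2 * hat φ 2) / 2 := by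
  have e0 : hat φ 0 = φ 0 1 + φ 2 3 := rfl
  have e1 : hat φ 1 = φ 0 2 + φ 3 1 := rfl
  have e2 : hat φ 2 = φ 0 3 + φ 1 2 := rfl
  simp only [wdA, e0, e1, e2]
  rw [mv01, mv02, mv03, mv12, mv13, mv23, hφ 3 1]
  ring

lemma hat_mv (ζ : Fin 4 → ℂ) (w n : Fin 3 → ℝ) (c : ℝ)
    (hw : ∀ k, w k = hat (jz ζ) k - c * n k) (k : Fin 3) :
    hat (mv ζ w) k = c * n k := by
  have k0 : w 0 = jz ζ 0 1 + jz ζ 2 3 - c * n 0 := hw 0
  have k1 : w 1 = jz ζ 0 2 + jz ζ 3 1 - c * n 1 := hw 1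
  have k2 : w 2 = jz ζ 0 3 + jz ζ 1 2 - c * n 2 := hw 2
  fin_cases k
  · have : hat (mv ζ w) 0 = mv ζ w 0 1 + mv ζ w 2 3 := rfl
    simp only [Fin.zero_eta, this, mv01, mv23]
    linarith
  · have : hat (mv ζ w) 1 = mv ζ w 0 2 + mv ζ w 3 1 := rfl
    simp only [Fin.mk_one, this, mv02, mv31]
    linarith
  · have : hat (mv ζ w) 2 = mv ζ w 0 3 + mv ζ w 1 2 := rfl
    simp only [Fin.reduceFinMk, this, mv03, mv12]
    linarith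

lemma hat_le {φ : Fin 4 → Fin 4 → ℝ} {B : ℝ} (hB : ∀ a c, |φ a c| ≤ B) (k : Fin 3) :
    |hat φ k| ≤ 2 * B := by
  fin_cases k
  · have : hat φ 0 = φ 0 1 + φ 2 3 := rfl
    simp only [Fin.zero_eta, this]
    exact (abs_add_le _ _).trans (by linarith [hB 0 1, hB 2 3])
  · have : hat φ 1 = φ 0 2 + φ 3 1 := rfl
    simp only [Fin.mk_one, this]
    exact (abs_add_le _ _).trans (by linarith [hB 0 2, hB 3 1])
  · have : hat φ 2 = φ 0 3 + φ 1 2 := rfl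
    simp only [Fin.reduceFinMk, this]
    exact (abs_add_le _ _).trans (by linarith [hB 0 3, hB 1 2])

/-- the positivity of a Jacobian on the positive cone, up to the symbol -/
theorem jac_pos {n : Fin 3 → ℝ} {ζ : Fin 4 → ℂ} {f : Sp} {φ : Fin 4 → Fin 4 → ℝ} {B : ℝ}
    (hn : len n = 1) (hf : ‖f‖ = 1) (hnf : P3 n f = f) (hφ : ∀ a c, φ a c = - φ c a)
    (hB : ∀ a c, |φ a c| ≤ B) (hP : PosA n φ) :
    -(144 * B * ‖symb ζ f‖ * nz ζ) ≤ wdA (jz ζ) φ := by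
  have hB0 : 0 ≤ B := (abs_nonneg _).trans (hB 0 0)
  have hZ0 : 0 ≤ nz ζ := nz_nonneg ζ
  have hSZ : ‖symb ζ f‖ ≤ 4 * nz ζ := by
    have := norm_symb_le ζ f
    rwa [hf, mul_one] at this
  rcases hZ0.eq_or_lt with hz | hz
  · have hζ : ∀ a, ζ a = 0 := by
      intro a
      have := norm_le_nz ζ a
      rw [← hz] at this
      exact norm_le_zero_iff.1 this
    have hj : wdA (jz ζ) φ = 0 := by
      simp [wdA, jz, hζ]
    rw [hj, ← hz]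
    simp
  · set w : Fin 3 → ℝ := fun k => hat (jz ζ) k - nz ζ ^ 2 * n k with hw
    have hl : len w ≤ 4 * nz ζ * ‖symb ζ f‖ := hat_jz' ζ n f hf hnf
    have hwk : ∀ k, w k = hat (jz ζ) k - nz ζ ^ 2 * n k := fun k => rfl
    have hc := cone hn (mv_anti ζ w) hφ (t := nz ζ ^ 2 / 2)
      (fun k => by rw [hat_mv ζ w n _ hwk k]; ring) hP
    rw [Fin.sum_univ_three] at hc
    have h4 : 2 * (nz ζ ^ 2 / 2) * wdA (mv ζ w) φ = nz ζ ^ 2 * wdA (mv ζ w) φ := by ring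
    rw [h4] at hc
    refine arith hz (norm_nonneg _) hSZ hB0 (fun k => (abs_le_len' w k).trans hl)
      (fun k => (abs_le_len' n k).trans hn.le) (hat_le hB) ?_ (wdA_mv_self ζ w n _ hwk)
      (wdA_mv ζ w φ hφ) hc
    have h1 := len_sq w
    rw [Fin.sum_univ_three] at h1
    rw [← h1]
    exact pow_le_pow_left₀ (len_nonneg w) hl 2

theorem ALG : ALG_statement := by
  refine ⟨lich, ⟨144, ?_⟩, ?_⟩
  · intro n ζ f φ B hn hf hnf hφ hB hP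
    exact jac_pos hn hf (by rwa [P3_apply]) hφ hB hP
  · intro n F φ t hn hF hφ hh hP
    exact cone hn hF hφ hh hP

end Vale.Agent.P247.H332.AlgS
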