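import Vale.Agent.P247.H647.En2

/-!
# P247, Stage 2, S2: the direction converges
-/

open scoped ContDiff Topology
open Set MeasureTheory Filter Metric

noncomputable section

namespace Vale.Agent.P247.H332.Dir

open Vale.Agent.P247.H74 Vale.Agent.P247.H574 Vale.Agent.P247.H647

variable {D : Data} {Q : Quat D} {M r : ℝ} {u : Fin 3 → ℝ} (s : Sol Q M r u)

lemma young {t : ℝ} (ht : 1 ≤ t) (a b : ℝ) : a * b ≤ 1 / (2 * t) * (t ^ 2 * a ^ 2 + b ^ 2) := by
  have h1 : 0 ≤ (t * a - b) ^ 2 / (2 * t) := by positivity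
  have h2 : (t * a - b) ^ 2 / (2 * t) = 1 / (2 * t) * (t ^ 2 * a ^ 2 + b ^ 2) - a * b := by
    field_simp
    ring
  linarith

/-- pointwise bound of the error, with decay -/
lemma Er_le (hr : 1 ≤ r) (x : R4) :
    s.Er x ≤ 1 / (2 * √r) * (2 * (r * (1 - ‖s.α x‖ ^ 2) ^ 2) + 2 * nz (s.z x) ^ 2 +
      2 * (r ^ 2 * ‖s.β x‖ ^ 2) + r * nz (s.y x) ^ 2 + 1) := by
  have ht : 1 ≤ √r := Real.one_le_sqrt.2 hr
  have ht2 : √r ^ 2 = r := Real.sq_sqrt (by linarith)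
  have h1 := young ht |1 - ‖s.α x‖ ^ 2| (r * ‖s.β x‖)
  have h2 := young ht |1 - ‖s.α x‖ ^ 2| 1
  have h3 := young ht (nz (s.y x)) (nz (s.z x))
  have h4 := young ht ‖s.β x‖ (nz (s.z x))
  rw [ht2, sq_abs, mul_pow] at h1
  rw [ht2, sq_abs, one_pow, mul_one] at h2
  rw [ht2] at h3 h4
  have h5 : 1 / (2 * √r) * (r * ‖s.β x‖ ^ 2 + nz (s.z x) ^ 2) ≤
      1 / (2 * √r) * (r ^ 2 * ‖s.β x‖ ^ 2 + nz (s.z x) ^ 2) := by
    refine mul_le_mul_of_nonneg_left ?_ (by positivity)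
    have : r * ‖s.β x‖ ^ 2 ≤ r ^ 2 * ‖s.β x‖ ^ 2 :=
      mul_le_mul_of_nonneg_right (by nlinarith) (sq_nonneg _)
    linarith
  have e : 1 / (2 * √r) * (2 * (r * (1 - ‖s.α x‖ ^ 2) ^ 2) + 2 * nz (s.z x) ^ 2 +
      2 * (r ^ 2 * ‖s.β x‖ ^ 2) + r * nz (s.y x) ^ 2 + 1) =
      1 / (2 * √r) * (r * (1 - ‖s.α x‖ ^ 2) ^ 2 + r ^ 2 * ‖s.β x‖ ^ 2) +
      1 / (2 * √r) * (r * (1 - ‖s.α x‖ ^ 2) ^ 2 + 1) +
      1 / (2 * √r) * (r * nz (s.y x) ^ 2 + nz (s.z x) ^ 2) +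
      1 / (2 * √r) * (r ^ 2 * ‖s.β x‖ ^ 2 + nz (s.z x) ^ 2) := by ring
  rw [e, Sol.Er]
  have c3 : nz (s.z x) * nz (s.y x) = nz (s.y x) * nz (s.z x) := mul_comm _ _
  have c4 : nz (s.z x) * ‖s.β x‖ = ‖s.β x‖ * nz (s.z x) := mul_comm _ _
  rw [c3, c4]
  linarith

lemma int_Er (hr : 1 ≤ r) {C : ℝ} (hC : 1 ≤ C) (h1 : s.E1 ≤ C) (h2 : r * s.E2 ≤ C)
    (h3 : r ^ 2 * s.F2 ≤ C) (h4 : r * s.F1 ≤ C) :
    ∫ x in cube, s.Er x ≤ 4 * C / √r := by
  have c1 := s.cnz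
  have c2 := s.cny
  have c3 := s.cα
  have c4 := s.cβ
  have ht : 1 ≤ √r := Real.one_le_sqrt.2 hr
  have h5 : ∫ x in cube, s.Er x ≤ 1 / (2 * √r) * (2 * (r * s.E2) + 2 * s.E1 +
      2 * (r ^ 2 * s.F2) + r * s.F1 + 1) := by
    refine (int_mono s.Er_cont ?_ (Er_le s hr)).trans (le_of_eq ?_)
    · fun_prop
    · rw [integral_const_mul, integral_add (intc (by fun_prop)) (intc (by fun_prop)),
        integral_add (intc (by fun_prop)) (intc (by fun_prop)),
        integral_add (intc (by fun_prop)) (intc (by fun_prop)),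
        integral_add (intc (by fun_prop)) (intc (by fun_prop)), integral_const_mul,
        integral_const_mul, integral_const_mul, integral_const_mul, integral_const_mul,
        integral_const_mul, int_const_cube]
      rfl
  refine h5.trans ?_
  have h6 : 4 * C / √r = 1 / (2 * √r) * (8 * C) := by
    field_simp
    ring
  rw [h6]
  refine mul_le_mul_of_nonneg_left ?_ (by positivity)
  linarith

/-- the components of the class in the direction `u` -/
lemma top_close (hT : TOP_statement) (hF : FRM_statement) (hA : ALG_statement) {B C : ℝ}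
    (hB : 1 ≤ B) (hTb : ∀ x j k, |Q.T x j k| ≤ B)
    (hρ : ∀ u, len u = 1 → ∀ x, 1 / B ≤ Q.rho u x ∧ Q.rho u x ≤ B) (hr : 1 ≤ r) (hC : 1 ≤ C)
    (h1 : s.E1 ≤ C) (h2 : r * s.E2 ≤ C) (h3 : r ^ 2 * s.F2 ≤ C) (h4 : r * s.F1 ≤ C)
    (j : Fin 3) :
    |u j * (∫ x in cube, s.G x) - topc D j| ≤ 48 * B ^ 3 * (1 + |M|) * (4 * C) / √r := by
  set c := 48 * B ^ 3 * (1 + |M|) with hc
  have hc0 : 0 ≤ c := by have := abs_nonneg M; positivity
  have cG : Continuous fun x => u j * s.G x := continuous_const.mul s.G_cont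
  have e1 : u j * (∫ x in cube, s.G x) - topc D j =
      ∫ x in cube, (u j * s.G x - w4 (jac s.a s.α x) (fun p q => (tri D j).val x p q)) := by
    rw [integral_sub (intc cG) (intc (s.cJ j)), integral_const_mul, s.int_J hT]
  have h5 : |∫ x in cube, (u j * s.G x -
      w4 (jac s.a s.α x) (fun p q => (tri D j).val x p q))| ≤ ∫ x in cube, c * s.Er x := by
    rw [← Real.norm_eq_abs]
    refine (norm_integral_le_integral_norm _).trans ?_
    refine int_mono (cG.sub (s.cJ j)).norm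
      (continuous_const.mul s.Er_cont) fun x => ?_
    rw [Real.norm_eq_abs, abs_sub_comm]
    exact s.key hF hA hB hTb hρ hr x j
  rw [e1]
  refine h5.trans ?_
  rw [integral_const_mul]
  refine (mul_le_mul_of_nonneg_left (int_Er s hr hC h1 h2 h3 h4) hc0).trans (le_of_eq ?_)
  ring

lemma G_nonneg : 0 ≤ ∫ x in cube, s.G x := by
  refine int_nonneg' fun x => ?_
  have h1 := s.rho_pos x
  have h2 := s.r_pos
  rw [Sol.G]
  positivity

/-- a unit vector whose multiples converge to a positive multiple of `e₀` converges to `e₀` -/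
lemma dir_lim {u : ℕ → Fin 3 → ℝ} {g : ℕ → ℝ} {τ : Fin 3 → ℝ} (hu : ∀ n, ∑ j, u n j ^ 2 = 1)
    (hg : ∀ᶠ n in atTop, 0 ≤ g n) (h0 : 0 < τ 0) (h1 : τ 1 = 0) (h2 : τ 2 = 0)
    (h : ∀ j, Tendsto (fun n => u n j * g n) atTop (𝓝 (τ j))) :
    Tendsto u atTop (𝓝 (Pi.single 0 1)) := by
  have hsq : Tendsto (fun n => g n ^ 2) atTop (𝓝 (τ 0 ^ 2)) := by
    have h3 : Tendsto (fun n => ∑ j, (u n j * g n) ^ 2) atTop (𝓝 (∑ j, τ j ^ 2)) :=
      tendsto_finsetSum _ fun j _ => (h j).pow 2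
    have h4 : ∑ j, τ j ^ 2 = τ 0 ^ 2 := by
      rw [Fin.sum_univ_three, h1, h2]; ring
    rw [h4] at h3
    refine h3.congr fun n => ?_
    simp_rw [mul_pow]
    rw [← Finset.sum_mul, hu n, one_mul]
  have hg' : Tendsto g atTop (𝓝 (τ 0)) := by
    have h3 := (Real.continuous_sqrt.tendsto _).comp hsq
    rw [Real.sqrt_sq h0.le] at h3
    refine h3.congr' ?_
    filter_upwards [hg] with n hn
    exact Real.sqrt_sq hn
  have hne : ∀ᶠ n in atTop, g n ≠ 0 := hg'.eventually_ne h0.ne'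
  rw [tendsto_pi_nhds]
  intro j
  have h3 : Tendsto (fun n => u n j * g n / g n) atTop (𝓝 (τ j / τ 0)) :=
    (h j).div hg' h0.ne'
  have h4 : τ j / τ 0 = (Pi.single 0 1 : Fin 3 → ℝ) j := by
    fin_cases j
    · simp [h0.ne']
    · simp [h1]
    · simp [h2]
  rw [h4] at h3
  refine h3.congr' ?_
  filter_upwards [hne] with n hn
  field_simp

theorem DIR (hBe : BETA_statement) (hT : TOP_statement) (hF : FRM_statement)
    (hA : ALG_statement) : DIR_statement := by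
  intro D hD Q M r u s hr
  obtain ⟨B, hB, hTb, -, hρ⟩ := Q.exists_rho_bd
  obtain ⟨C, r₀, hC, hr₀, hen⟩ := Sol_energy Q M hBe hT hF hA
  have hlarge : ∀ᶠ n in atTop, r₀ ≤ r n := hr.eventually_ge_atTop r₀
  refine dir_lim (g := fun n => ∫ x in cube, (s n).G x) (τ := topc D) (fun n => (s n).u_sq)
    (Eventually.of_forall fun n => G_nonneg (s n)) ?_ ?_ ?_ fun j => ?_
  · have h1 : (tri D 0) = D.om := rfl
    rw [topc, h1]
    have := hD.posc
    positivity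
  · have h1 : (tri D 1) = D.η 0 := rfl
    rw [topc, h1, D.cls 0, mul_zero]
  · have h1 : (tri D 2) = D.η 1 := rfl
    rw [topc, h1, D.cls 1, mul_zero]
  · rw [tendsto_iff_norm_sub_tendsto_zero]
    have hz : Tendsto (fun n => 48 * B ^ 3 * (1 + |M|) * (4 * C) / √(r n)) atTop (𝓝 0) :=
      (Real.tendsto_sqrt_atTop.comp hr).const_div_atTop _
    refine squeeze_zero' (Eventually.of_forall fun n => norm_nonneg _) ?_ hz
    filter_upwards [hlarge] with n hn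
    obtain ⟨e1, e2, e3, e4⟩ := hen (r n) (u n) (s n) hn
    rw [Real.norm_eq_abs]
    exact top_close (s n) hT hF hA hB hTb hρ (hr₀.trans hn) hC e1 e2 e3 e4 j

end Vale.Agent.P247.H332.Dir
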